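import Vale.Agent.P290.Bdl.B3
import Vale.Agent.P290.H124.Cover
import Vale.Agent.P290.H124.Exist

open Set Vale.Agent.P290.All Vale.Agent.P290.H124
open scoped Manifold ContDiff Topology

/-- (0) For every lattice `ℤ l₀ + ⋯ + ℤ l₃` of `ℂ²` the Kummer surface of the torus `ℂ²/L` exists
(in the sense of the definition used here).
(1) Every Kummer surface is Oka.
(2) Let `X` and `Z` be complex K3 surfaces linked by a finite chain of Tate-Shafarevich twists. If
`Z` is a Kummer surface, or if `Z` has a family of holomorphic maps to Riemann surfaces without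
common critical point and with finite joint fibres, then `X` is Oka.
(3) Every complex surface with a holomorphic unramified covering by a surface as in (1) or (2) is
Oka. -/
theorem Vale.Agent.Results.P290.EnriquesKummerTwist.result :
    (∀ l : Fin 4 → C2, LinearIndependent ℝ l →
      ∃ (X : Type) (_ : TopologicalSpace X) (_ : ChartedSpace C2 X),
        IsManifold 𝓘(ℂ, C2) ω X ∧ T2Space X ∧
          Nonempty (Kummer (AddSubgroup.closure (range l)) X)) ∧
    (∀ (X : Type) [TopologicalSpace X] [ChartedSpace C2 X] [IsManifold 𝓘(ℂ, C2) ω X] [T2Space X],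
      IsKummer X → IsOka X) ∧
    (∀ X Z : K3, Relation.EqvGen (fun X Y => Nonempty (Twist X Y)) X Z →
      Fibred Z ∨ IsKummer Z.X → IsOka X.X) ∧
    (∀ (X Y : Type) [TopologicalSpace X] [ChartedSpace C2 X] [IsManifold 𝓘(ℂ, C2) ω X] [T2Space X]
      [TopologicalSpace Y] [ChartedSpace C2 Y] [IsManifold 𝓘(ℂ, C2) ω Y] [T2Space Y] (p : X → Y),
      HolCover p → IsKummer X → IsOka Y) ∧
    ∀ (X Z : K3) (Y : Type) [TopologicalSpace Y] [ChartedSpace C2 Y] [IsManifold 𝓘(ℂ, C2) ω Y]
      [T2Space Y] (p : X.X → Y), HolCover p →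
      Relation.EqvGen (fun X Y => Nonempty (Twist X Y)) X Z →
      Fibred Z ∨ IsKummer Z.X → IsOka Y := by
  refine ⟨fun l hl => ?_, fun _ _ _ _ _ h => isOka_of_isKummer h,
    fun X Z h hZ => isOka_of_linked X Z h hZ,
    fun _ _ _ _ _ _ _ _ _ _ p hp h => isOka_of_cover hp (isOka_of_isKummer h),
    fun X Z _ _ _ _ _ p hp h hZ => isOka_of_cover hp (isOka_of_linked X Z h hZ)⟩
  exact exists_kummer_surface l hl
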